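import Vale.Agent.P247P.Hm
import Vale.Agent.P247A.SpecQ

/-!
# P247P: Hodge theory of the anti-self-dual operator
-/

set_option linter.all false

open scoped ContDiff Topology ENNReal ComplexConjugate RealInnerProductSpace
open Set MeasureTheory Filter Module

noncomputable section

namespace Vale.Agent.P247P

open Vale.Agent.P204.GX Vale.Agent.P204.T4 Vale.Agent.P247E Vale.Agent.P247I
open Vale.Agent.P247.H74 (e)
open Vale.Agent.P247.H647 (Sp hat)

theorem Q_asd (A : L2) (v : V4) : P204.T4.Q A (asd v) = ∑ c, ac A c * v c := by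
  simp [asd_eq, ac_eq, P204.T4.Q, Fin.sum_univ_four]
  ring

theorem ac_asd (v : V4) : ac (asd v) = (-2 : ℝ) • (v - v 0 • e 0) := by
  funext i
  fin_cases i <;> simp [asd_eq, ac_eq, e] <;> ring

variable {X : Type} [MetricSpace X] [CompactSpace X] [MeasurableSpace X] [BorelSpace X] {Q : QM X}

theorem ker {φ : X → Sp} (h : φ ∈ (Hm Q).kerS) : φ ∈ (Hx.H Q).kerS := by
  have s := (Q.mem_t1 φ).1 h.1
  have m := Q.dX_mem_Om s
  have v0 : vec 0 = 0 := map_zero vecL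
  have k0 := fun x i => congrFun (Hm_app Q h.1 x) i
  simp only [h.2, v0, Pi.zero_apply] at k0
  have k : ∀ x, P204.T4.Q (Q.dX (fun x => vec (φ x)) x) (Q.dX (fun x => vec (φ x)) x) =
      ∑ i, Q.dX (fun x => vec (φ x)) x i ^ 2 := fun x => by
    have k1 := k0 x 1
    have k2 := k0 x 2
    have k3 := k0 x 3
    generalize Q.dX (fun x => vec (φ x)) x = A at *
    simp [ac_eq, e] at k1 k2 k3
    rw [Fin.sum_univ_six, P204.T4.Q]
    linear_combination (A 0 - A 5) * k1 + (A 1 + A 4) * k2 + (A 2 - A 3) * k3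
  have d0 := Solv.om_zero m (((integral_eq_zero_iff_of_nonneg (fun x => (k x).ge.trans'
    (by positivity)) (Solv.intQ m m)).1 (Solv.stokes s m fun a => by
      rw [Q.cf_dX s]; exact closed_d1 (s a))).mono fun x hx => funext fun i =>
      pow_eq_zero_iff two_ne_zero |>.1 ((Finset.sum_eq_zero_iff_of_nonneg fun _ _ =>
        sq_nonneg _).1 ((k x).symm.trans hx) i (Finset.mem_univ i)))
  refine ⟨h.1, fun x => Hx.vec_inj (funext (Fin.cases ?_ fun k => ?_))⟩
  · simpa [ac_eq, e, v0] using (k0 x 0).symm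
  · rw [(Hx.isHod Q).curl φ h.1, d0, ← Hx.hc_succ, v0]
    simp

theorem const_of [ConnectedSpace X] {f : X → ℝ} (hf : Q.Sm0 f) (h : df Q.toCM f = 0) (x x' : X) :
    f x = f x' := by
  refine IsLocallyConstant.apply_eq_of_preconnectedSpace
    ((IsLocallyConstant.iff_eventually_eq _).2 fun x => ?_) x x'
  obtain ⟨a, y, -, rfl⟩ := Q.cov x
  filter_upwards [(Q.isOpen_range a).mem_nhds (mem_range_self y)]
  rintro _ ⟨z, rfl⟩
  refine is_const_of_fderiv_eq_zero ((hf a).differentiable (by simp)) (fun y =>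
    ContinuousLinearMap.ext fun v => ?_) z y
  have := fun i => congrFun (congrFun (cf1_df hf a) y) i
  simp only [h, Q.cf1_zero, Pi.zero_apply, pd] at this
  rw [clm_vec]
  simp [e, ← this]

theorem proj {U : Type} [AddCommGroup U] [Module ℝ U] (b : U →ₗ[ℝ] U →ₗ[ℝ] ℝ)
    (K : Submodule ℝ U) [FiniteDimensional ℝ K] (bd : ∀ u, b u u = 0 → u = 0) (g : U) :
    ∃ k ∈ K, ∀ t ∈ K, b (g - k) t = 0 := by
  obtain ⟨k, hk⟩ := (LinearMap.injective_iff_surjective_of_finrank_eq_finrank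
    (f := b.domRestrict₁₂ K K) Subspace.dual_finrank_eq.symm).1
    ((injective_iff_map_eq_zero _).2 fun u h => Subtype.ext (bd _ (LinearMap.congr_fun h u)))
    ((b g).domRestrict K)
  exact ⟨k, k.2, fun t ht => by
    rw [map_sub, LinearMap.sub_apply, sub_eq_zero]; exact (LinearMap.congr_fun hk ⟨t, ht⟩).symm⟩

theorem split {U : Type} [AddCommGroup U] [Module ℝ U] (b : U →ₗ[ℝ] U →ₗ[ℝ] ℝ)
    (K : Submodule ℝ U) [FiniteDimensional ℝ K] (bd : ∀ u, b u u = 0 → u = 0)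
    (b0 : ∀ u, 0 ≤ b u u) (bs : ∀ u v, b u v = b v u) (l : U →ₗ[ℝ] ℝ) {o : U} (ho : o ∈ K)
    (lo : l o = 1) : ∃ (q : ℕ) (c : Fin q → U), (∀ i, c i ∈ K ∧ l (c i) = 0) ∧
      (Matrix.of fun i j => 2 * b (c i) (c j)).PosDef ∧ finrank ℝ K = q + 1 ∧
      ∀ k ∈ K, ∃ (v : Fin q → ℝ) (r : ℝ), k = ∑ i, v i • c i + r • o := by
  let l' := l.domRestrict K
  let B := Module.finBasis ℝ (LinearMap.ker l')
  refine ⟨_, fun i => (B i).1.1, fun i => ⟨(B i).1.2, (B i).2⟩,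
    Matrix.posDef_iff_dotProduct_mulVec.2 ⟨?_, fun v hv => ?_⟩, ?_, fun k hk => ?_⟩
  · ext i j
    simp [bs]
  · have e2 : star v ⬝ᵥ (Matrix.of fun i j => 2 * b (B i).1.1 (B j).1.1).mulVec v =
        2 * b (∑ i, v i • B i).1.1 (∑ i, v i • B i).1.1 := by
      simp only [AddSubmonoidClass.coe_finsetSum, SetLike.val_smul, map_sum, map_smul,
        LinearMap.sum_apply, LinearMap.smul_apply,
        dotProduct, Matrix.mulVec, Finset.mul_sum, star_trivial, Matrix.of_apply, smul_eq_mul]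
      refine Finset.sum_congr rfl fun i _ => Finset.sum_congr rfl fun j _ => ?_
      rw [bs]
      ring
    rw [e2]
    exact mul_pos two_pos (lt_of_le_of_ne (b0 _) fun k => hv (funext
      (Fintype.linearIndependent_iff.1 B.linearIndependent v
        (Subtype.ext (Subtype.ext (bd _ k.symm))))))
  · rw [← l'.finrank_range_add_finrank_ker, LinearMap.range_eq_top.2 fun r =>
      ⟨r • ⟨o, ho⟩, by simp [l', lo]⟩, finrank_top, finrank_self, add_comm]
  let k0 : LinearMap.ker l' := ⟨⟨k, hk⟩ - l k • ⟨o, ho⟩, by simp [l', lo]⟩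
  refine ⟨B.repr k0, l k, sub_eq_iff_eq_add.1 ?_⟩
  have := (congrArg (fun s : LinearMap.ker l' => s.1.1) (B.sum_repr k0)).symm
  simp only [AddSubmonoidClass.coe_finsetSum, SetLike.val_smul] at this
  exact this

theorem ip_zero {E : Bun Q.toCM Sp} (u : E.Sm) (h : ip E u u = 0) : u = 0 :=
  Subtype.ext (Bun.zero_of_int u.2 h)

/-- the common properties of the two Hodge operators -/
structure HD {E : Bun Q.toCM Sp} (P : Op Q.t1 E) (cp : L2 →L[ℝ] V4) (fm : V4 →L[ℝ] L2) (σ : ℝ) :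
    Prop where
  cl : P.Cliff
  app : ∀ φ ∈ Q.t1.Sm, ∀ x, vec (P.app φ x) =
    cp (Q.dX (fun x => vec (φ x)) x) + vec ((Hx.H Q).app φ x) 0 • e 0
  ne : σ ≠ 0
  zero : ∀ A, cp A 0 = 0
  Q_fm : ∀ A v, P204.T4.Q A (fm v) = ∑ c, cp A c * v c
  cp_fm : ∀ v, cp (fm v) = σ • (v - v 0 • e 0)
  fm_e : fm (e 0) = 0
  sm_0 : ∀ t ∈ E.Sm, Q.Sm0 fun x => vec (t x) 0
  fm_mem : ∀ t ∈ E.Sm, (fun x => fm (vec (t x))) ∈ Q.Om
  cp_mem : ∀ u ∈ Q.Om, (fun x => spn (cp (u x))) ∈ E.Sm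
  one : (fun _ => spn (e 0)) ∈ E.Sm

variable {E : Bun Q.toCM Sp} {P : Op Q.t1 E} {cp : L2 →L[ℝ] V4} {fm : V4 →L[ℝ] L2} {σ : ℝ}

theorem HD.key (D : HD P cp fm σ) {φ t : X → Sp} (h : φ ∈ Q.t1.Sm) (ht : t ∈ E.Sm) :
    ∫ x, ⟪φ x, P.adj.app t x⟫ ∂Q.mu =
      -∫ x, ∑ c, df Q.toCM (fun x => vec (t x) 0) x c * vec (φ x) c ∂Q.mu +
      Q.pr (Q.dX fun x => vec (φ x)) fun x => fm (vec (t x)) := by
  rw [← P.isAdj_adj φ h t ht, ← (Hx.isHod Q).div φ h _ (D.sm_0 t ht), CM.pr, ← integral_add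
    ((SmF.continuous (M := Q.toCM) fun a => (D.sm_0 t ht a).mul
      (Solv.sm_0 ((Hx.H Q).app_mem h) a)).integrable_of_hasCompactSupport (.of_compactSpace _))
    (Solv.intQ (Q.dX_mem_Om ((Q.mem_t1 φ).1 h)) (D.fm_mem t ht))]
  simp [Hx.inner_vec, D.app φ h, D.Q_fm, mul_add, Finset.sum_add_distrib, e, Pi.single_apply,
    add_comm, mul_comm]

theorem HD.coker (D : HD P cp fm σ) {t : X → Sp} (h : t ∈ P.adj.kerS) :
    df Q.toCM (fun x => vec (t x) 0) = 0 ∧ ∀ a, Closed (Q.cf a fun x => fm (vec (t x))) := by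
  have k : ∀ η, Q.Sm1 η → -∫ x, ∑ c, df Q.toCM (fun x => vec (t x) 0) x c * η x c ∂Q.mu +
      Q.pr (Q.dX η) (fun x => fm (vec (t x))) = 0 := fun η hη => by
    simpa only [vec_spn, h.2, inner_zero_right, integral_zero] using (D.key (φ := fun x =>
      spn (η x)) ((Q.mem_t1 _).2 (by simpa only [vec_spn] using hη)) h.1).symm
  have f0 := D.sm_0 t h.1
  have d0 := Solv.df_zero f0 (by simpa [dX_df f0, CM.pr] using k _ (sm1_df f0))
  exact ⟨d0, fun a => weak4 ((D.fm_mem t h.1 a).of_le (by norm_num)) fun η h1 h2 => by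
    simpa [d0, Q.dX_ext1 a h1 h2, CM.pr, Q.integral_ext] using k _ (Q.sm1_ext1 a h1 h2)⟩

theorem HD.mem (D : HD P cp fm σ) {t : X → Sp} (h : t ∈ E.Sm) {r : ℝ} (h0 : ∀ x, vec (t x) 0 = r)
    (hc : ∀ a, Closed (Q.cf a fun x => fm (vec (t x)))) : appL P.adj ⟨t, h⟩ = 0 := by
  have m := P.adj.app_mem h
  refine Subtype.ext (show P.adj.app t = 0 from Bun.zero_of_int m ?_)
  rw [D.key m h, pr_dX ((Q.mem_t1 _).1 m) (D.fm_mem t h) hc]
  simp [h0, df]

/-- the harmonic forms -/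
theorem HD.hodge [ConnectedSpace X] (D : HD P cp fm σ) : ∃ (q : ℕ) (c : Fin q → X → L2),
    (∀ i, c i ∈ Q.Om ∧ (∀ a, Closed (Q.cf a (c i))) ∧ ∀ x, ∃ v, c i x = fm v) ∧
    (Matrix.of fun i j => 2 * σ⁻¹ * Q.pr (c i) (c j)).PosDef ∧
    finrank ℝ (LinearMap.ker (appL P.adj)) = q + 1 ∧
    (∀ α ∈ Q.Om, ∃ (η : X → V4) (v : Fin q → ℝ), Q.Sm1 η ∧
      ∀ x, cp (α x - Q.dX η x - ∑ i, v i • c i x) = 0) ∧
    ∀ β ∈ Q.Om, (∀ a, Closed (Q.cf a β)) → (∀ x, fm (cp (β x)) = σ • β x) →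
      ∃ v : Fin q → ℝ, β = ∑ i, v i • c i := by
  obtain ⟨-, f2, -, sv⟩ := ell.smi rfl P.isAdj_adj D.cl
  obtain ⟨q, b, h1, h2, h3, h4⟩ := split (ip E) (LinearMap.ker (appL P.adj)) ip_zero
    (fun u => by rw [ip_self]; positivity)
    (fun u w => integral_congr_ae (.of_forall fun x => real_inner_comm _ _))
    ⟨⟨fun t => vecL (t.1 (Classical.arbitrary X)) 0, fun _ _ => congrFun (map_add vecL _ _) 0⟩,
      fun _ _ => congrFun (map_smul vecL _ _) 0⟩ (o := ⟨_, D.one⟩)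
    (D.mem D.one (fun _ => rfl) fun a => by
      simpa only [vec_spn, D.fm_e] using Q.cf_zero a ▸ closed_zero)
    (congrFun (vec_spn (e 0)) 0)
  have hK := fun i => D.coker (t := (b i).1) ⟨(b i).2, congrFun (congrArg Subtype.val (h1 i).1)⟩
  have z : ∀ i x, vec ((b i).1 x) 0 = 0 := fun i x => by
    have := (h1 i).2
    simp only [LinearMap.coe_mk, AddHom.coe_mk, vecL_apply] at this
    exact (const_of (D.sm_0 _ (b i).2) (hK i).1 x (Classical.arbitrary X)).trans this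
  have e0 : ∀ i j, 2 * σ⁻¹ * Q.pr (fun x => fm (vec ((b i).1 x))) (fun x => fm (vec ((b j).1 x)))
      = 2 * ip E (b i) (b j) := fun i j => by
    simp only [CM.pr, D.Q_fm, D.cp_fm, z, ip, LinearMap.mk₂_apply,
      ← integral_const_mul, Hx.inner_vec]
    simp [Finset.mul_sum, mul_assoc, D.ne]
  have m := fun i => D.fm_mem _ (b i).2
  refine ⟨q, _, fun i => ⟨m i, (hK i).2, fun x => ⟨_, rfl⟩⟩, by simpa only [e0] using h2, h3,
    fun α hα => ?_, fun β hβ hc hp => ?_⟩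
  · obtain ⟨k, hk, h⟩ := proj (ip E) (LinearMap.ker (appL P.adj)) ip_zero ⟨_, D.cp_mem α hα⟩
    obtain ⟨u, hu⟩ := sv _ h
    obtain ⟨v, r, rfl⟩ := h4 k hk
    refine ⟨fun x => vec (u.1 x), σ⁻¹ • v, (Q.mem_t1 u.1).1 u.2, fun x => ?_⟩
    have e1 := (D.app _ u.2 x).symm.trans (congrArg (fun s : E.Sm => vecL (s.1 x)) hu)
    simp only [Submodule.coe_sub, Submodule.coe_add, AddSubmonoidClass.coe_finsetSum,
      SetLike.val_smul, Pi.sub_apply, Pi.add_apply, Finset.sum_apply, Pi.smul_apply, map_sub,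
      map_add, map_smul, map_sum, vecL_apply, vec_spn] at e1
    simp only [map_sub, map_sum, map_smul, Pi.smul_apply, smul_eq_mul, D.cp_fm, z, zero_smul,
      sub_zero, smul_smul, mul_right_comm _ _ σ, inv_mul_cancel₀ D.ne, one_mul]
    have e4 := congrFun e1 0
    simp [z, D.zero, e] at e4
    rw [e4, neg_smul] at e1
    linear_combination (exp := 1) -e1
  obtain ⟨v, r, h⟩ := h4 ⟨_, D.cp_mem β hβ⟩ (D.mem _ (fun x => by rw [vec_spn, D.zero]) fun a => by
    simp only [vec_spn, hp]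
    exact (Q.Cl.smul_mem σ (x := ⟨β, hβ⟩) hc) a)
  refine ⟨σ⁻¹ • v, funext fun x => ?_⟩
  have e1 := congrArg (fun s : E.Sm => fm (vecL (s.1 x))) h
  simp only [Submodule.coe_add, AddSubmonoidClass.coe_finsetSum, SetLike.val_smul, Pi.add_apply,
    Finset.sum_apply, Pi.smul_apply, map_add, map_smul, map_sum, vecL_apply, vec_spn, hp, D.fm_e,
    smul_zero, add_zero] at e1
  simp only [Finset.sum_apply, Pi.smul_apply, smul_eq_mul, mul_smul, ← Finset.smul_sum, ← e1,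
    inv_smul_smul₀ D.ne]

theorem hdm : HD (Hm Q) ac asd (-2) :=
  ⟨Hm_cliff Q, fun _ => Hm_app Q, by norm_num, fun _ => rfl, Q_asd, ac_asd,
    by funext i; fin_cases i <;> simp [asd_eq, e], fun _ => sm_0, fun _ => asd_mem,
    fun u h => by simpa using ac_mem h (f := 0) fun a => contDiff_const,
    by simpa using ac_mem Q.Om.zero_mem (f := fun _ => -1) fun a => contDiff_const⟩

/-- the self-dual form with given components -/
def sdL : V4 →L[ℝ] L2 := LinearMap.toContinuousLinearMap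
  { toFun := fun v => ![v 1, v 2, v 3, v 3, -v 2, v 1]
    map_add' := fun A B => by funext i; fin_cases i <;> simp <;> ring
    map_smul' := fun c A => by funext i; fin_cases i <;> simp }

theorem sdL_eq (v : V4) : sdL v = ![v 1, v 2, v 3, v 3, -v 2, v 1] := rfl

theorem hdp [ConnectedSpace X] : HD (Hx.H Q) Hx.hc sdL 2 := by
  refine ⟨(hodx X Q (.triv _)).2 _ (Hx.isHod Q), fun φ h x => ?_, two_ne_zero, fun _ => rfl,
    fun A v => ?_, fun v => ?_, ?_, fun _ => Solv.sm_0, fun t h => ?_,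
    fun u h => Hx.triv_sm.2 fun a => ?_, Hx.triv_sm.2 fun a => contDiff_const⟩
  · simp [Hx.H_app Q h, Hx.hc_eq, e, sub_eq_add_neg]
  · simp [sdL_eq, Hx.hc_eq, P204.T4.Q, Fin.sum_univ_four]
    ring
  · funext i
    fin_cases i <;> simp [sdL_eq, Hx.hc_eq, e] <;> ring
  · funext i
    fin_cases i <;> simp [sdL_eq, e]
  · convert Solv.sd_mem (Solv.sm_s h) using 2 with x
    funext i
    fin_cases i <;> simp [sdL_eq, Solv.sd, eS_eq, Fin.sum_univ_three]
  · simpa only [Q.eq_pull_m' u a, Hx.hc_m', Function.comp_def, spnL_apply] using spnL.contDiff.comp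
      (Hx.hc.contDiff.comp (contDiff_pull.comp ((Q.n'_smooth a).prodMk (h a))))

theorem card_le {M : CM X} {ι κ : Type} [Fintype ι] [Fintype κ] {c : ι → X → L2} {d : κ → X → L2}
    (h : ∀ (v : ι → ℝ) η, M.Sm1 η → ∑ i, v i • c i = M.dX η → v = 0)
    (k : ∀ i, ∃ (v : κ → ℝ) (η : X → V4), M.Sm1 η ∧ c i = ∑ j, v j • d j + M.dX η) :
    Fintype.card ι ≤ Fintype.card κ := by
  choose A η h1 h2 using k
  have s : ∀ (v : ι → ℝ) i, M.Sm1 (v i • η i) := fun v i a => by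
    rw [M.cf1_smul]; exact (h1 i a).const_smul (v i)
  have := LinearMap.finrank_le_finrank_of_injective (f := (Matrix.of A).vecMulLinear)
    ((injective_iff_map_eq_zero _).2 fun v hv => h v _ (M.dX_sum Finset.univ fun i _ => s v i).1 (by
      have : ∀ j, ∑ i, v i * A i j = 0 := fun j => congrFun hv j
      rw [(M.dX_sum Finset.univ fun i _ => s v i).2]
      simp only [h2, smul_add, Finset.sum_add_distrib, Finset.smul_sum, smul_smul, M.dX_smul _ (h1 _)]
      rw [Finset.sum_comm]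
      simp only [← Finset.sum_smul, this, zero_smul, Finset.sum_const_zero, zero_add]))
  simpa using this

theorem pr_sum {M : CM X} {q : ℕ} {c : Fin q → X → L2} (h : ∀ i, c i ∈ M.Om) (v : Fin q → ℝ)
    {u : X → L2} (hu : u ∈ M.Om) : M.pr (∑ i, v i • c i) u = ∑ i, v i * M.pr (c i) u := by
  simp only [CM.pr, ← integral_const_mul]
  rw [← integral_finsetSum _ fun i _ => (Solv.intQ (h i) hu).const_mul _]
  simp only [Finset.sum_apply, Pi.smul_apply, ← Q_smul_left]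
  congr 1
  funext x
  simp only [P204.T4.Q, Finset.sum_apply, Finset.sum_mul, Finset.sum_add_distrib,
    Finset.sum_sub_distrib]

theorem zero_of {M : CM X} {q : ℕ} {c : Fin q → X → L2} (h : ∀ i, c i ∈ M.Om) {t : ℝ}
    (hp : (Matrix.of fun i j => t * M.pr (c i) (c j)).PosDef) {v : Fin q → ℝ}
    (h0 : ∀ j, M.pr (∑ i, v i • c i) (c j) = 0) : v = 0 := by
  by_contra n
  refine (hp.transpose.dotProduct_mulVec_pos n).ne' (Finset.sum_eq_zero fun j _ => ?_)
  have := h0 j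
  rw [pr_sum h v (h j)] at this
  simp [Matrix.mulVec, dotProduct, mul_comm _ (v _), mul_left_comm _ t, ← Finset.mul_sum, this]

open Vale.Agent.P247A in
/-- **the Hodge count** for `Hm Q` -/
theorem cnt0 [ConnectedSpace X] (b1 : B1 Q.toCM) {r : ℕ} {c : Fin r → X → L2}
    (hc : H2Q Q.toCM c) : (Q.dirac (LBc.triv Q.toCM)).ind - (Hm Q).ind = r + 2 := by
  obtain ⟨p, c1, a1, a2, a3, -, a5⟩ := (hdp (Q := Q)).hodge
  obtain ⟨q, c2, d1, d2, d3, d4, -⟩ := (hdm (Q := Q)).hodge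
  have o : ∀ i j, Q.pr (c1 i) (c2 j) = 0 := fun i j => by
    rw [CM.pr, ← integral_zero X ℝ]
    congr 1
    funext x
    obtain ⟨v, h⟩ := (a1 i).2.2 x
    obtain ⟨w, k⟩ := (d1 j).2.2 x
    simp [h, k, sdL_eq, asd_eq, P204.T4.Q]
  have m1 : ∀ v : Fin p → ℝ, ∑ i, v i • c1 i ∈ Q.Om := fun v =>
    Q.Om.sum_mem fun i _ => Q.Om.smul_mem _ (a1 i).1
  have m2 : ∀ v : Fin q → ℝ, ∑ i, v i • c2 i ∈ Q.Om := fun v =>
    Q.Om.sum_mem fun i _ => Q.Om.smul_mem _ (d1 i).1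
  have e1 : r = p + q := by
    rw [← Fintype.card_fin r, ← Fintype.card_fin p, ← Fintype.card_fin q, ← Fintype.card_sum]
    refine le_antisymm (card_le (d := Sum.elim c1 c2) hc.indep fun i => ?_)
      (card_le (c := Sum.elim c1 c2) (fun v η h k => ?_) (Sum.rec
        (fun i => hc.span _ (a1 i).1 (a1 i).2.1) fun i => hc.span _ (d1 i).1 (d1 i).2.1))
    · obtain ⟨η, v, h, k⟩ := d4 _ (hc.mem i)
      have cl : (⟨_, hc.mem i⟩ - ⟨_, Q.dX_mem_Om h⟩ - ∑ j, v j • ⟨_, (d1 j).1⟩ : Q.Om) ∈ Q.Cl :=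
        Q.Cl.sub_mem (Q.Cl.sub_mem (hc.closed i) fun a => by
          rw [Q.cf_dX h]; exact closed_d1 (h a)) (Q.Cl.sum_mem fun j _ =>
            Q.Cl.smul_mem _ (d1 j).2.1)
      obtain ⟨u, e⟩ := a5 (c i - Q.dX η - ∑ j, v j • c2 j)
        (Q.Om.sub_mem (Q.Om.sub_mem (hc.mem i) (Q.dX_mem_Om h)) (m2 v))
        (fun a => by simpa using cl a) fun x => by
          have := k x
          simp only [Pi.sub_apply, Finset.sum_apply, Pi.smul_apply]
          generalize c i x - Q.dX η x - ∑ j, v j • c2 j x = A at *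
          have k1 := congrFun this 1
          have k2 := congrFun this 2
          have k3 := congrFun this 3
          simp [ac_eq] at k1 k2 k3
          funext i
          fin_cases i <;> simp [sdL_eq, Hx.hc_eq] <;> linarith
      exact ⟨Sum.elim u v, η, h, by simp [Fintype.sum_sum_type, ← e]⟩
    rw [Fintype.sum_sum_type] at k
    have ad : ∀ u ∈ Q.Om, Q.pr (Q.dX η) u = Q.pr (∑ i, v (.inl i) • c1 i) u +
        Q.pr (∑ i, v (.inr i) • c2 i) u := fun u hu => by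
      rw [← k, CM.pr, CM.pr, CM.pr, ← integral_add (Solv.intQ (m1 _) hu) (Solv.intQ (m2 _) hu)]
      simp only [Pi.add_apply, Q_add_left, Sum.elim_inl, Sum.elim_inr]
    have o' : ∀ i j, Q.pr (c2 j) (c1 i) = 0 := fun i j => by
      simpa only [CM.pr, Q_comm] using o i j
    funext i
    rcases i with i | i
    · refine congrFun (zero_of (fun i => (a1 i).1) a2 (v := fun i => v (.inl i)) fun j => ?_) i
      simpa [pr_dX h (a1 j).1 (a1 j).2.1, pr_sum (fun i => (d1 i).1) _ (a1 j).1, o'] using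
        (ad _ (a1 j).1).symm
    · refine congrFun (zero_of (fun i => (d1 i).1) d2 (v := fun i => v (.inr i)) fun j => ?_) i
      simpa [pr_dX h (d1 j).1 (d1 j).2.1, pr_sum (fun i => (a1 i).1) _ (d1 j).1, o] using
        (ad _ (d1 j).1).symm
  have z : ∀ {E : Bun Q.toCM P247.H647.Sp} (P : Op Q.t1 E), P.kerS ⊆ (Hx.H Q).kerS →
      finrank ℝ (LinearMap.ker (appL P)) = 0 := fun P h => by
    rw [LinearMap.ker_eq_bot'.2 fun s hs => Subtype.ext (Solv.ker b1 (Hx.isHod Q)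
      (h ⟨s.2, congrFun (congrArg Subtype.val hs)⟩)), finrank_bot]
  have i1 := (ell.smi rfl (Hx.H Q).isAdj_adj hdp.cl).2.2.1
  have i2 := (ell.smi rfl (Hm Q).isAdj_adj hdm.cl).2.2.1
  have dc := Q.dirac_cliff (LBc.triv Q.toCM)
  have da := (Q.dirac (LBc.triv Q.toCM)).isAdj_adj
  rw [z _ Subset.rfl, a3, ← (Hx.H Q).neg_ind, (ZER X _ _ _ _ _).2 rfl _ (Hx.H Q).neg
    (CLA X _ _ _ _ _ rfl _ _ da dc) (by funext a i y; exact neg_neg _),
    ell.ind_adj rfl da dc] at i1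
  rw [z _ fun _ => ker, d3] at i2
  rw [e1]
  push_cast at i1 i2 ⊢
  omega

open Vale.Agent.P247A in
/-- **the Hodge count** for every operator with the symbol of `(div, d⁻)` -/
theorem cnt [ConnectedSpace X] (H : Op Q.t1 (tm Q))
    (h : ∀ a i y w, H.Mi a i y w = ph' (spn fun d => Q.b a y d i) w) (b1 : B1 Q.toCM) {r : ℕ}
    {c : Fin r → X → L2} (hc : H2Q Q.toCM c) :
    (Q.dirac (LBc.triv Q.toCM)).ind - H.ind = r + 2 := by
  rw [(ZER X _ _ _ _ _).2 rfl (Hm Q) H (Hm_cliff Q)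
    (by funext a i y; exact ContinuousLinearMap.ext (h a i y)), cnt0 b1 hc]

/-- the symbol of `Hm Q` -/
theorem Hm_Mi (a : Q.A) (i : Fin 4) (y : V4) (w : Sp) :
    (Hm Q).Mi a i y w = ph' (spn fun d => Q.b a y d i) w := rfl

open Vale.Agent.P247A in
/-- **the theorem of Poincare and Hopf** -/
theorem phq : PHQ_statement := fun X _ _ _ _ _ Q _ b1 r c hc => ⟨1, .inl rfl, fun φ h => by
  rw [phl (H := Hm Q) Hm_Mi h, cnt0 b1 hc, one_mul]⟩

end Vale.Agent.P247P
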