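import Vale.Agent.P247I.Phl
import Vale.Agent.P247E.QSolv

/-!
# P247P: the anti-self-dual Hodge operator
-/

set_option linter.all false

open scoped ContDiff Topology ENNReal ComplexConjugate RealInnerProductSpace
open Set MeasureTheory Filter Module

noncomputable section

namespace Vale.Agent.P247P

open Vale.Agent.P204.GX Vale.Agent.P204.T4 Vale.Agent.P247E Vale.Agent.P247I
open Vale.Agent.P247.H74 (e)
open Vale.Agent.P247.H647 (Sp hat)

theorem vec_ph' (ζ w : Sp) : vec (ph' ζ w) = app (Rq (vec w)) (cq (vec ζ)) := by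
  funext i
  fin_cases i <;> simp [vec_eq, ph'_apply, app_eq, Rq, cq] <;> ring

/-- `t ↦ p t p̄` -/
def cn (p t : V4) : V4 := app (Rq p) (app (Rq t) (cq p))

theorem vec_Ad (p : V4) (φ : Sp) : vec (Ad p φ) = cn p (vec φ) := by
  rw [Ad_apply, vec_sgm, vec_ph', vec_spn, cn]

theorem cn_inv {p : V4} (h : ∑ c, p c ^ 2 = 1) (t : V4) : cn p (cn (cq p) t) = t := by
  conv_rhs => rw [← one_smul ℝ t, ← one_pow 2, ← h]
  funext i
  fin_cases i <;> simp [cn, app_eq, Rq, cq, Fin.sum_univ_four] <;> ring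

theorem unit_cq {p : V4} (h : ∑ c, p c ^ 2 = 1) : ∑ c, cq p c ^ 2 = 1 := (ns_cq p).trans h

theorem cn_zero {p : V4} (h : ∑ c, p c ^ 2 = 1) (t : V4) : cn p t 0 = t 0 := by
  conv_rhs => rw [← one_mul (t 0), ← h]
  simp [cn, app_eq, Rq, cq, Fin.sum_univ_four]
  ring

theorem cn_sub {p : V4} (h : ∑ c, p c ^ 2 = 1) (t : V4) (r : ℝ) :
    cn p (t - r • e 0) = cn p t - r • e 0 := by
  conv_rhs => rw [← one_mul r, ← h]
  funext i
  fin_cases i <;> simp [cn, app_eq, Rq, cq, Fin.sum_univ_four, e] <;> ring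

/-- the anti-self-dual components of a two-form -/
def ac : L2 →L[ℝ] V4 := LinearMap.toContinuousLinearMap
  { toFun := fun A => ![0, A 0 - A 5, A 1 + A 4, A 2 - A 3]
    map_add' := fun A B => by funext i; fin_cases i <;> simp <;> ring
    map_smul' := fun c A => by funext i; fin_cases i <;> simp <;> ring }

theorem ac_eq (A : L2) : ac A = ![0, A 0 - A 5, A 1 + A 4, A 2 - A 3] := rfl

/-- the anti-self-dual form with given components -/
def asd : V4 →L[ℝ] L2 := LinearMap.toContinuousLinearMap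
  { toFun := fun v => ![-v 1, -v 2, -v 3, v 3, -v 2, v 1]
    map_add' := fun A B => by funext i; fin_cases i <;> simp <;> ring
    map_smul' := fun c A => by funext i; fin_cases i <;> simp }

theorem asd_eq (v : V4) : asd v = ![-v 1, -v 2, -v 3, v 3, -v 2, v 1] := rfl

theorem ac_pull (q : V4) (A : L2) : ac (pull (Rq (cq q)) A) = cn q (ac A) := by
  funext i
  fin_cases i <;> simp [ac_eq, pull_eq, ofEnt, pent, mn, Rq, cn, app_eq, cq] <;> ring

theorem pull_asd (q v : V4) : pull (Rq q) (asd v) = asd (cn (cq q) v) := by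
  funext i
  fin_cases i <;> simp [asd_eq, pull_eq, ofEnt, pent, mn, Rq, cn, app_eq, cq] <;> ring

theorem ac_wd (β t : V4) : app (Rq t) (cq β) = 
    (app (Rq (cq β)) t 0) • e 0 + ac (P204.T4.wd β t) := by
  funext i
  fin_cases i <;> simp [ac_eq, P204.T4.wd, app_eq, Rq, cq, e] <;> ring

variable {X : Type} [MetricSpace X] (Q : QM X)

theorem vec_lo (a : Q.A) (t : X → Sp) (y : V4) :
    vec ((tm Q).lo a t y) = cn (cq (Q.p a y)) (vec (t (Q.ψ a y))) := vec_Ad _ _

theorem ac_m' (a : Q.A) (y : V4) (A : L2) :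
    ac (pull (Q.m' a y) A) = cn (Q.p a y) (ac (pull (Q.n' a y) A)) := by
  rw [show Q.m' a y = mm (Q.n' a y) (Rq (cq (Q.p a y))) from
    m4_ext fun v => by rw [app_mm, Q.m'_app], pull_mm, ac_pull]

variable {Q}

theorem sm_0 {t : X → Sp} (h : t ∈ (tm Q).Sm) : Q.Sm0 fun x => vec (t x) 0 := fun a => by
  simpa only [Function.comp_def, vecL_apply, vec_lo, cn_zero (unit_cq (Q.p_unit a _))] using
    contDiff_pi.1 (vecL.contDiff.comp (h a)) 0

theorem asd_mem {t : X → Sp} (h : t ∈ (tm Q).Sm) : (fun x => asd (vec (t x))) ∈ Q.Om := fun a => by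
  have : Q.cf a (fun x => asd (vec (t x))) = fun y => pull (Q.n a y) (asd (vecL ((tm Q).lo a t y))) := by
    funext y
    rw [CM.cf, Q.m_eq, pull_mm, pull_asd, vecL_apply, vec_lo]
  have k := contDiff_pull.comp ((Q.n_smooth a).prodMk
    (asd.contDiff.comp (vecL.contDiff.comp (h a))))
  rw [this]
  simpa only [Function.comp_def] using k

theorem ac_mem {u : X → L2} (h : u ∈ Q.Om) {f : X → ℝ} (hf : Q.Sm0 f) :
    (fun x => spn (ac (u x) - f x • e 0)) ∈ (tm Q).Sm := fun a => by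
  have : (tm Q).lo a (fun x => spn (ac (u x) - f x • e 0)) =
      fun y => spnL (ac (pull (Q.n' a y) (Q.cf a u y)) - f (Q.ψ a y) • e 0) := by
    funext y
    refine Hx.vec_inj ?_
    have k := cn_inv (unit_cq (Q.p_unit a y))
    rw [cq_cq] at k
    rw [vec_lo, spnL_apply, vec_spn, vec_spn, Q.eq_pull_m' u a, ac_m', cn_sub (unit_cq (Q.p_unit a y)), k]
  rw [this]
  exact spnL.contDiff.comp ((ac.contDiff.comp (contDiff_pull.comp ((Q.n'_smooth a).prodMk
    (h a)))).sub ((hf a).smul contDiff_const))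

variable (Q) [MeasurableSpace X] [BorelSpace X]

/-- the zero order part -/
def hN (a : Q.A) (y : V4) : Sp →L[ℝ] Sp := spnL.comp
  ((∑ c, ((ContinuousLinearMap.proj c).comp vecL).smulRight
    (ac (pull (Q.n' a y) (d1 (fun z => Q.n a z c) y)))) -
    (((ContinuousLinearMap.proj 0).comp vecL).smulRight (e 0)).comp ((Hx.Ds Q).N a y))

theorem loc_eq (a : Q.A) {φ : X → Sp} (h : φ ∈ Q.t1.Sm) (y : V4) :
    vec ((tm Q).u a y (locOp (fun i y => ph' (spn fun d => Q.b a y d i)) (hN Q a) (Q.t1.lo a φ) y)) =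
      ac (Q.dX (fun x => vec (φ x)) (Q.ψ a y)) - vec ((Hx.Ds Q).app φ (Q.ψ a y)) 0 • e 0 := by
  have d := ((h a).differentiable (by simp) y).hasFDerivAt
  have d2 : HasFDerivAt (fun y => vec (Q.t1.lo a φ y))
      (vecL.comp (fderiv ℝ (Q.t1.lo a φ) y)) y := vecL.hasFDerivAt.comp y d
  rw [Q.eq_pull_m' (Q.dX _) a, Q.cf_dX (Hx.sm1_vec Q h), Hx.cf1_vec, ac_m', (Hx.Ds Q).app_ψ h,
    Hx.t0_u, Hx.d1_copp d2.differentiableAt ((Q.n_smooth a).differentiable (by simp) y), d2.fderiv,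
    ← cn_sub (Q.p_unit a y)]
  refine (vec_Ad _ _).trans (congrArg _ ?_)
  have e1 : ∀ i : Fin 4, copp (e i) (Q.n' a y) = fun d => Q.b a y d i := fun i => by
    funext d
    simp [copp, e, Pi.single_apply, Q.b_apply]
  simp only [← pullL_apply, ← vecL_apply, locOp, map_add, map_sum, map_smul, neg_apply, Hx.Ds_Mi,
    neg_neg, map_neg, hN, ContinuousLinearMap.comp_apply, sub_apply, sum_apply,
    ContinuousLinearMap.smulRight_apply, ContinuousLinearMap.proj_apply]
  simp only [pullL_apply, vecL_apply, spnL_apply, vec_spn, vec_sgm, pull_wd, e1, Q.copp_n_n',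
    Pi.add_apply, vec_ph',
    Finset.sum_apply, Pi.neg_apply, add_smul, Finset.sum_smul, neg_smul, Finset.sum_neg_distrib]
  rw [Finset.sum_congr rfl fun i _ => ac_wd _ _, Finset.sum_add_distrib]
  abel

/-- the operator `(div, d⁻)` -/
def Hm : Op Q.t1 (tm Q) where
  Mi a i y := ph' (spn fun d => Q.b a y d i)
  N := hN Q
  Mi_smooth a i := by
    simpa only [Function.comp_def, spnL_apply] using ph'.contDiff.comp (spnL.contDiff.comp
      (contDiff_pi.2 fun d => contDiff_pi.1 (Q.b_smooth a d) i))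
  N_smooth a := contDiff_const.clm_comp ((ContDiff.sum fun c _ => contDiff_const.smulRight
    (ac.contDiff.comp (contDiff_pull.comp ((Q.n'_smooth a).prodMk
      (contDiff_d1 (contDiff_pi.1 (Q.n_smooth a) c)))))).sub
    (contDiff_const.clm_comp ((Hx.Ds Q).N_smooth a)))
  compat s hs a b y hy := Hx.vec_inj (by rw [loc_eq Q a hs, loc_eq Q b hs, Q.ψ_τ hy])

theorem Hm_app {φ : X → Sp} (h : φ ∈ Q.t1.Sm) (x : X) : vec ((Hm Q).app φ x) =
    ac (Q.dX (fun x => vec (φ x)) x) + vec ((Hx.H Q).app φ x) 0 • e 0 := by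
  have := loc_eq Q (Q.ch x) h (Q.cy x)
  rw [Q.ψ_cy] at this
  rw [Hx.H_app Q h]
  refine this.trans ?_
  simp [Hx.hc_eq, e, sub_eq_add_neg]

theorem Hm_cliff : (Hm Q).Cliff := cliff_H fun _ _ _ _ => rfl

end Vale.Agent.P247P
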